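import Vale.Agent.Lib.P047.CF.Main

/-!
# P047 (Gopalan-Servedio): a constant-factor improvement of the upper bound `M(d) ≤ d`

Here `{-1,1}` is `ℤˣ`, a Boolean function on `n` bits is `f : (Fin n → ℤˣ) → ℤˣ`,
`fourier f S = f̂(S)` and `degree f = deg f`.

For every Boolean `f` with `deg f ≤ d`, `d ≥ 2`:
`∑_i |f̂({i})| ≤ (59/60) d` and `∑_i |f̂({i})| ≤ d / (1 + (d - 1) / 2^(d-1))`.
-/

namespace Vale.Agent.Results.P047.A_ConstantFactorBound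

open Vale.Agent.Lib.P047

theorem result (n : ℕ) (f : (Fin n → ℤˣ) → ℤˣ) (d : ℕ) (hd2 : 2 ≤ d) (hd : degree f ≤ d) :
    ∑ i, |fourier f {i}| ≤ 59 / 60 * (d : ℝ) ∧
    ∑ i, |fourier f {i}| ≤ (d : ℝ) / (1 + ((d : ℝ) - 1) / 2 ^ (d - 1)) :=
  ⟨level_one_le_const_factor f d hd2 hd, sum_abs_le_granular f d (by omega) hd⟩

end Vale.Agent.Results.P047.A_ConstantFactorBound
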