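import Vale.Agent.Lib.P047.Dual.Main
import Vale.Agent.Lib.P047.DegThree
import Vale.Agent.Lib.P047.DegFourSharp
import Vale.Agent.Lib.P047.SevenEx
import Vale.Agent.Lib.P047.TenEx
import Vale.Agent.Lib.P047.TwelveEx
import Vale.Agent.Lib.P047.D5.Main
import Vale.Agent.Lib.P047.CF.Main
import Vale.Agent.Lib.P047.PK.Wit
import Vale.Agent.Lib.P047.AmplifyEps

/-!
# P047 (Gopalan-Servedio): the square-root bound on at most fourteen variables and in degree at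
most five, exact values, a linear bound with constant `59/60`, lower bounds, self-improvement

Here `{-1,1}` is `ℤˣ`, a Boolean function on `n` bits is `f : (Fin n → ℤˣ) → ℤˣ`,
`fourier f S = f̂(S)` and `degree f = deg f`.

1. If `n ≤ 14` then `∑_i |f̂({i})| ≤ √(deg f)`.
2. `deg f ≤ 5` (any `n`) implies `∑_i |f̂({i})| ≤ √(deg f)` and `≤ 17/8`; `deg f ≤ 4` implies
   `≤ 7/4`.
3. If `n ≤ 11` and `deg f ≤ 6` then `∑_i |f̂({i})| ≤ 17/8`; if `n ≤ 12` and `deg f ≤ 8` then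
   `∑_i |f̂({i})| ≤ 39/16`.
4. Examples: seven bits, degree 4, sum `7/4`; ten bits, degree 5, sum `17/8`; hence
   `M(4) = 7/4` and `M(5) = 17/8` (suprema over all `n ≥ 1`).
5. `deg f ≤ d`, `d ≥ 2` implies `∑_i |f̂({i})| ≤ (59/60) d`.
6. Examples: twelve bits, degree 7, sum `39/16`; sixteen bits, degree at most 9, sum `343/128`;
   sixteen bits, degree at most 11, sum `357/128`.
7. If for every `ε > 0` some `C` has `∑_i f̂({i}) ≤ C (deg f)^(1/2 + ε)` for all Boolean `f`, then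
   `∑_i |f̂({i})| + |f̂(∅)| ≤ √(deg f)` for all Boolean `f` of odd degree.
-/

namespace Vale.Agent.Results.P047.A_FourteenVarsExactLinearBounds

open Vale.Agent.Lib.P047

theorem result :
    (∀ (n : ℕ) (f : (Fin n → ℤˣ) → ℤˣ), n ≤ 14 →
      ∑ i, |fourier f {i}| ≤ Real.sqrt (degree f)) ∧
    (∀ (n : ℕ) (f : (Fin n → ℤˣ) → ℤˣ), degree f ≤ 5 →
      ∑ i, |fourier f {i}| ≤ Real.sqrt (degree f) ∧ ∑ i, |fourier f {i}| ≤ 17 / 8) ∧
    (∀ (n : ℕ) (f : (Fin n → ℤˣ) → ℤˣ), degree f ≤ 4 → ∑ i, |fourier f {i}| ≤ 7 / 4) ∧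
    (∀ (n : ℕ) (f : (Fin n → ℤˣ) → ℤˣ), n ≤ 11 → degree f ≤ 6 →
      ∑ i, |fourier f {i}| ≤ 17 / 8) ∧
    (∀ (n : ℕ) (f : (Fin n → ℤˣ) → ℤˣ), n ≤ 12 → degree f ≤ 8 →
      ∑ i, |fourier f {i}| ≤ 39 / 16) ∧
    (∃ f : (Fin 7 → ℤˣ) → ℤˣ, degree f = 4 ∧ ∑ i, fourier f {i} = 7 / 4) ∧
    (∃ f : (Fin 10 → ℤˣ) → ℤˣ, degree f = 5 ∧ ∑ i, fourier f {i} = 17 / 8) ∧
    sSup {c : ℝ | ∃ (n : ℕ) (f : (Fin n → ℤˣ) → ℤˣ), 1 ≤ n ∧ degree f ≤ 4 ∧
      c = ∑ i, fourier f {i}} = 7 / 4 ∧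
    sSup {c : ℝ | ∃ (n : ℕ) (f : (Fin n → ℤˣ) → ℤˣ), 1 ≤ n ∧ degree f ≤ 5 ∧
      c = ∑ i, fourier f {i}} = 17 / 8 ∧
    (∀ (n : ℕ) (f : (Fin n → ℤˣ) → ℤˣ) (d : ℕ), 2 ≤ d → degree f ≤ d →
      ∑ i, |fourier f {i}| ≤ 59 / 60 * (d : ℝ)) ∧
    (∃ f : (Fin 12 → ℤˣ) → ℤˣ, degree f = 7 ∧ ∑ i, fourier f {i} = 39 / 16) ∧
    (∃ f : (Fin 16 → ℤˣ) → ℤˣ, degree f ≤ 9 ∧ ∑ i, fourier f {i} = 343 / 128) ∧
    (∃ f : (Fin 16 → ℤˣ) → ℤˣ, degree f ≤ 11 ∧ ∑ i, fourier f {i} = 357 / 128) ∧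
    ((∀ ε : ℝ, 0 < ε → ∃ C : ℝ, ∀ (n : ℕ) (f : (Fin n → ℤˣ) → ℤˣ),
        ∑ i, fourier f {i} ≤ C * (degree f : ℝ) ^ (1 / 2 + ε)) →
      ∀ (n : ℕ) (f : (Fin n → ℤˣ) → ℤˣ), Odd (degree f) →
        ∑ i, |fourier f {i}| + |fourier f ∅| ≤ Real.sqrt (degree f)) := by
  have h4 : ∀ (n : ℕ) (f : (Fin n → ℤˣ) → ℤˣ), degree f ≤ 4 →
      ∑ i, |fourier f {i}| ≤ 7 / 4 := fun n f hd => level_one_le_seven_quarters f hd
  have h5 : ∀ (n : ℕ) (f : (Fin n → ℤˣ) → ℤˣ), degree f ≤ 5 →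
      ∑ i, |fourier f {i}| ≤ 17 / 8 := fun n f hd => level_one_le_seventeen_eighths f hd
  have hG : degree exG = 5 := by
    apply le_antisymm exG_degree
    by_contra hcon
    have hd4 : degree exG ≤ 4 := by omega
    have hle : ∑ i, fourier exG {i} ≤ ∑ i, |fourier exG {i}| :=
      Finset.sum_le_sum fun i _ => le_abs_self _
    have h := h4 10 exG hd4
    rw [exG_sum] at hle
    linarith
  refine ⟨fun n f hn => level_one_le_sqrt_of_card_le n hn f,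
    fun n f hd => ⟨level_one_le_sqrt_le_five f hd, h5 n f hd⟩, h4,
    fun n f hn hd => level_one_le_of_card_le_eleven n hn f hd,
    fun n f hn hd => level_one_le_of_card_le_twelve n hn f hd,
    ⟨exF, exF_degree_eq, exF_sum⟩, ⟨exG, hG, exG_sum⟩,
    ?_, ?_, fun n f d hd2 hd => level_one_le_const_factor f d hd2 hd,
    ⟨exH, exH_degree_eq, exH_sum⟩, ⟨exW9, exW9_degree, exW9_sum⟩,
    ⟨exW11, exW11_degree, exW11_sum⟩, ?_⟩
  · apply IsGreatest.csSup_eq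
    constructor
    · exact ⟨7, exF, by norm_num, exF_degree, exF_sum.symm⟩
    · rintro c ⟨n, f, -, hd, rfl⟩
      exact le_trans (Finset.sum_le_sum fun i _ => le_abs_self _) (h4 n f hd)
  · apply IsGreatest.csSup_eq
    constructor
    · exact ⟨10, exG, by norm_num, exG_degree, exG_sum.symm⟩
    · rintro c ⟨n, f, -, hd, rfl⟩
      exact le_trans (Finset.sum_le_sum fun i _ => le_abs_self _) (h5 n f hd)
  · intro hweak n f hodd
    have key := amplify_eps hweak f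
    rw [if_pos hodd] at key
    exact key

end Vale.Agent.Results.P047.A_FourteenVarsExactLinearBounds
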