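import Vale.Agent.Lib.P047.Dual.Main
import Vale.Agent.Lib.P047.TenEx
import Vale.Agent.Lib.P047.TwelveEx

/-!
# P047 (Gopalan-Servedio): the square-root bound for all Boolean functions on at most
fourteen variables, and for all Boolean functions of degree at most five

Here `{-1,1}` is `ℤˣ`, a Boolean function on `n` bits is `f : (Fin n → ℤˣ) → ℤˣ`,
`fourier f S = f̂(S)` and `degree f = deg f`.

1. If `n ≤ 14` then `∑_i |f̂({i})| ≤ √(deg f)`.
2. If `deg f ≤ 5` (any `n`) then `∑_i |f̂({i})| ≤ √(deg f)` and `∑_i |f̂({i})| ≤ 17/8`.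
3. If `n ≤ 11` and `deg f ≤ 6` then `∑_i |f̂({i})| ≤ 17/8`;
   if `n ≤ 12` and `deg f ≤ 8` then `∑_i |f̂({i})| ≤ 39/16`.
4. Both constants are attained: ten bits, degree 5, sum `17/8`; twelve bits, degree 7, sum `39/16`.
-/

namespace Vale.Agent.Results.P047.A_FourteenVarsOrDegreeFive

open Vale.Agent.Lib.P047

theorem result :
    (∀ (n : ℕ) (f : (Fin n → ℤˣ) → ℤˣ), n ≤ 14 →
      ∑ i, |fourier f {i}| ≤ Real.sqrt (degree f)) ∧
    (∀ (n : ℕ) (f : (Fin n → ℤˣ) → ℤˣ), degree f ≤ 5 →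
      ∑ i, |fourier f {i}| ≤ Real.sqrt (degree f) ∧ ∑ i, |fourier f {i}| ≤ 17 / 8) ∧
    (∀ (n : ℕ) (f : (Fin n → ℤˣ) → ℤˣ), n ≤ 11 → degree f ≤ 6 →
      ∑ i, |fourier f {i}| ≤ 17 / 8) ∧
    (∀ (n : ℕ) (f : (Fin n → ℤˣ) → ℤˣ), n ≤ 12 → degree f ≤ 8 →
      ∑ i, |fourier f {i}| ≤ 39 / 16) ∧
    (∃ f : (Fin 10 → ℤˣ) → ℤˣ, degree f = 5 ∧ ∑ i, fourier f {i} = 17 / 8) ∧
    (∃ f : (Fin 12 → ℤˣ) → ℤˣ, degree f = 7 ∧ ∑ i, fourier f {i} = 39 / 16) := by
  have hG : degree exG = 5 := by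
    apply le_antisymm exG_degree
    by_contra hcon
    have hd4 : degree exG ≤ 4 := by omega
    have hle : ∑ i, fourier exG {i} ≤ ∑ i, |fourier exG {i}| :=
      Finset.sum_le_sum fun i _ => le_abs_self _
    have h := level_one_le_seven_quarters exG hd4
    rw [exG_sum] at hle
    linarith
  exact ⟨fun n f hn => level_one_le_sqrt_of_card_le n hn f,
    fun n f hd => ⟨level_one_le_sqrt_le_five f hd, level_one_le_seventeen_eighths f hd⟩,
    fun n f hn hd => level_one_le_of_card_le_eleven n hn f hd,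
    fun n f hn hd => level_one_le_of_card_le_twelve n hn f hd,
    ⟨exG, hG, exG_sum⟩, ⟨exH, exH_degree_eq, exH_sum⟩⟩

end Vale.Agent.Results.P047.A_FourteenVarsOrDegreeFive
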